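import Vale.Agent.P216.H826.Bars
import Vale.Agent.P216.Spine.Build

/-!
# Bounded bars: the form of the contract (D5)
-/

namespace Vale.Agent.P216.H826

open Set
open Vale.Agent.P216.L250 Vale.Agent.P216.LS Vale.Agent.P216.H288 Vale.Agent.P216.AS
open Vale.Agent.P216.H494

variable {M : Type} [MetricSpace M] {ρ : ℝ}

theorem two_ne_zero_zmod {p : ℕ} (hp : 2 < p) : (2 : ZMod p) ≠ 0 := by
  intro h
  have h1 : ((2 : ℕ) : ZMod p) = 0 := by exact_mod_cast h
  rw [ZMod.natCast_eq_zero_iff] at h1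
  exact absurd (Nat.le_of_dvd two_pos h1) (by omega)

/-- **D5** for the system of a closed manifold. -/
theorem bars_mkGSys [CompactSpace M] (H : Hol M) (G : GeoList M) (hD : DescentStmt H G)
    (hρ : 0 < ρ) (h : UniqSeg M ρ) (hsw : ∀ x₀ : M, ∃ b w μ, IsSweep H x₀ b w μ) :
    (mkGSys H G hD).Bars := by
  obtain ⟨B, hB, key⟩ := bars hρ h hsw
  refine ⟨B, hB, fun p hp hp2 s hs hsub n x => ?_⟩
  change Ha (fun _ : Unit => (deckC : LM M × ℂ → LM M × ℂ)) (fun _ : Unit => (-1 : ZMod p))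
    (XX H (s + B)) n at x
  change XX H s ⊆ XX H (s + B) at hsub
  change res hsub n x = 0
  have e1 : XX H s = Xt H s := XX_eq hs.le
  have e2 : XX H (s + B) = Xt H (s + B) := XX_eq (by linarith)
  revert hsub x
  rw [e1, e2]
  intro x hsub
  exact key (ZMod p) (two_ne_zero_zmod hp2) s hs n hsub x

end Vale.Agent.P216.H826
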