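import Vale.Agent.P216.Hol.Struct
import Vale.Agent.P216.LS.Seg

/-!
# Backtracking loops and based families over a small ball
-/

namespace Vale.Agent.P216.H826

open Set Filter Topology
open Vale.Agent.P216.L250 Vale.Agent.P216.LS Vale.Agent.P216.H288

variable {M : Type*} [MetricSpace M] {ρ : ℝ}

/-- The triangular wave on the circle. -/
noncomputable def tri (θ : AddCircle (1 : ℝ)) : ℝ := 2 * ‖θ‖

theorem continuous_tri : Continuous tri := by
  unfold tri
  fun_prop

theorem tri_mem (θ : AddCircle (1 : ℝ)) : tri θ ∈ Icc (0 : ℝ) 1 := by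
  have h := AddCircle.norm_le_half_period (1 : ℝ) one_ne_zero (x := θ)
  rw [abs_one] at h
  exact ⟨mul_nonneg two_pos.le (norm_nonneg _), by unfold tri; linarith⟩

theorem tri_neg (θ : AddCircle (1 : ℝ)) : tri (-θ) = tri θ := by
  rw [tri, norm_neg, tri]

theorem tri_zero : tri 0 = 0 := by rw [tri, norm_zero, mul_zero]

theorem tri_half : tri ((1 / 2 : ℝ) : AddCircle (1 : ℝ)) = 1 := by
  rw [tri, AddCircle.norm_eq]
  norm_num [round_eq]

theorem norm_coe_le (t : ℝ) : ‖((t : ℝ) : AddCircle (1 : ℝ))‖ ≤ |t| := by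
  have := AddCircle.norm_coe_eq_abs_iff (1 : ℝ) (x := t) one_ne_zero
  rw [AddCircle.norm_eq]
  simp only [inv_one, one_mul, mul_one]
  rcases le_total |t| (1 / 2) with h | h
  · have := round_le t 0
    simpa using this
  · have := abs_sub_round t
    linarith

theorem abs_tri_sub_le (s t : ℝ) : |tri (s : AddCircle (1 : ℝ)) - tri (t : AddCircle (1 : ℝ))| ≤
    2 * |s - t| := by
  rw [tri, tri, ← mul_sub, abs_mul, abs_of_pos (two_pos : (0 : ℝ) < 2)]
  refine mul_le_mul_of_nonneg_left ?_ two_pos.le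
  refine (abs_norm_sub_norm_le _ _).trans ?_
  rw [← AddCircle.coe_sub]
  exact norm_coe_le _

section Bt

variable [CompactSpace M]

open Classical in
/-- The loop which runs from `x` to `y` along the segment, and back. -/
noncomputable def bt (x y : M) : LM M :=
  if h : Continuous fun θ : AddCircle (1 : ℝ) => seg x y (tri θ) then ⟨_, h⟩ else cst x

theorem continuous_seg_tri (h : UniqSeg M ρ) {x y : M} (hxy : dist x y < ρ) :
    Continuous fun θ : AddCircle (1 : ℝ) => seg x y (tri θ) := by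
  rw [← continuousOn_univ]
  exact ContinuousOn.seg h continuousOn_const continuousOn_const continuous_tri.continuousOn
    (fun _ _ => hxy) fun _ _ => tri_mem _

theorem bt_apply (h : UniqSeg M ρ) {x y : M} (hxy : dist x y < ρ) (θ : AddCircle (1 : ℝ)) :
    bt x y θ = seg x y (tri θ) := by
  rw [bt, dif_pos (continuous_seg_tri h hxy)]
  rfl

theorem fn_bt (h : UniqSeg M ρ) {x y : M} (hxy : dist x y < ρ) (t : ℝ) :
    fn (bt x y) t = seg x y (tri t) := bt_apply h hxy _

theorem fn_bt_zero (h : UniqSeg M ρ) {x y : M} (hxy : dist x y < ρ) : fn (bt x y) 0 = x := by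
  rw [fn_bt h hxy, AddCircle.coe_zero, tri_zero, seg_zero]

theorem fn_bt_half (h : UniqSeg M ρ) {x y : M} (hxy : dist x y < ρ) :
    fn (bt x y) (1 / 2) = y := by
  rw [fn_bt h hxy, tri_half, seg_one]

theorem rev_bt (h : UniqSeg M ρ) {x y : M} (hxy : dist x y < ρ) : rev (bt x y) = bt x y :=
  ext_fn fun t => by
    rw [fn_rev, fn_bt h hxy, fn_bt h hxy, AddCircle.coe_neg, tri_neg]

omit [CompactSpace M] in
theorem bt_self (x : M) : bt x x = cst x := by
  rw [bt]
  split_ifs with h
  · ext θ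
    exact seg_self x _
  · rfl

theorem bt_hasE (h : UniqSeg M ρ) {x y : M} (hxy : dist x y < ρ) :
    HasE (fn (bt x y)) ((2 * dist x y) ^ 2) := by
  refine ⟨fun t => t * (2 * dist x y) ^ 2, fun s t hst => ?_, fun t => by ring⟩
  rw [fn_bt h hxy, fn_bt h hxy, dist_seg_seg h hxy (tri_mem _) (tri_mem _)]
  have h1 := abs_tri_sub_le s t
  rw [abs_of_nonpos (sub_nonpos.2 hst)] at h1
  have h2 : |tri (s : AddCircle (1 : ℝ)) - tri (t : AddCircle (1 : ℝ))| * dist x y ≤
      (t - s) * (2 * dist x y) := by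
    calc _ ≤ (2 * -(s - t)) * dist x y := mul_le_mul_of_nonneg_right h1 dist_nonneg
      _ = _ := by ring
  have h3 := pow_le_pow_left₀ (mul_nonneg (abs_nonneg _) dist_nonneg) h2 2
  calc _ ≤ _ := h3
    _ = _ := by ring

theorem bt_mem (h : UniqSeg M ρ) {x y : M} (hxy : dist x y < ρ) : bt x y ∈ XE M (2 * ρ) :=
  (bt_hasE h hxy).mono (pow_le_pow_left₀ (mul_nonneg two_pos.le dist_nonneg) (by linarith) 2)

theorem continuousOn_bt (h : UniqSeg M ρ) :
    ContinuousOn (fun p : M × M => bt p.1 p.2) {p | dist p.1 p.2 < ρ} := by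
  rw [continuousOn_iff_continuous_domRestrict]
  have h1 : Continuous fun q : {p : M × M | dist p.1 p.2 < ρ} × AddCircle (1 : ℝ) =>
      seg q.1.1.1 q.1.1.2 (tri q.2) := by
    rw [← continuousOn_univ]
    refine ContinuousOn.seg h (by fun_prop) (by fun_prop)
      (continuous_tri.comp continuous_snd).continuousOn (fun q _ => q.1.2) fun _ _ => tri_mem _
  let F : C({p : M × M | dist p.1 p.2 < ρ}, LM M) := ContinuousMap.curry ⟨_, h1⟩
  refine (F.continuous).congr fun q => ?_
  ext θ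
  exact (bt_apply h q.2 θ).symm

/-! ### The holonomy of a backtracking loop -/

theorem hol_bt (HS : Hol M) (h : UniqSeg M ρ) {x y : M} (hxy : dist x y < ρ) :
    HS.hol (bt x y) = 1 := by
  have hd : ∀ σ ∈ Icc (0 : ℝ) 1, dist x (seg x y σ) < ρ := fun σ hσ => by
    rw [dist_left_seg h hxy hσ]
    exact (mul_le_of_le_one_left dist_nonneg hσ.2).trans_lt hxy
  have hc1 : ContinuousOn (fun σ : ℝ => bt x (seg x y σ)) (Icc 0 1) := by
    refine (continuousOn_bt h).comp (f := fun σ : ℝ => (x, seg x y σ)) ?_ fun σ hσ => hd σ hσ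
    exact continuousOn_const.prodMk (ContinuousOn.seg h continuousOn_const continuousOn_const
      continuousOn_id (fun _ _ => hxy) fun _ hσ => hσ)
  have hc2 : ContinuousOn (fun σ : ℝ => HS.hol (bt x (seg x y σ))) (Icc 0 1) :=
    (HS.continuousOn_hol (2 * ρ)).comp hc1 fun σ hσ => bt_mem h (hd σ hσ)
  have hsq : EqOn ((fun σ : ℝ => HS.hol (bt x (seg x y σ))) ^ 2) 1 (Icc 0 1) := by
    intro σ hσ
    have h1 := HS.hol_rev (bt x (seg x y σ))
    rw [rev_bt h (hd σ hσ)] at h1
    have h3 := HS.mul_conj_hol (bt x (seg x y σ))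
    rw [← h1] at h3
    simp only [Pi.pow_apply, Pi.one_apply, pow_two]
    exact h3
  rcases isPreconnected_Icc.eq_one_or_eq_neg_one_of_sq_eq hc2 hsq with h1 | h1
  · simpa using h1 (right_mem_Icc.2 zero_le_one)
  · have h2 := h1 (left_mem_Icc.2 zero_le_one)
    simp only [seg_zero, bt_self, HS.hol_cst, Pi.neg_apply, Pi.one_apply] at h2
    norm_num at h2

end Bt

/-! ### Conjugation of a loop at `y` by a short segment -/

/-- The loop based at `x`: from `x` to `y`, then `w`, then back to `x`. -/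
noncomputable def fam (w : LM M) (y x : M) : LM M := rot (3 / 4) (cc (1 / 2) w (bt y x))

theorem half_mem : (0 : ℝ) < 1 / 2 ∧ (1 / 2 : ℝ) < 1 := by norm_num

theorem fam_zero [CompactSpace M] (h : UniqSeg M ρ) {w : LM M} {y x : M} (hxy : dist y x < ρ)
    (hw : fn w 0 = y) : fn (fam w y x) 0 = x := by
  rw [fam, fn_rot, fn_cc_right half_mem (by rw [hw, fn_bt_zero h hxy]) (by norm_num)
    (by norm_num)]
  have : ((0 + 3 / 4 - 1 / 2) / (1 - 1 / 2) : ℝ) = 1 / 2 := by norm_num
  rw [this, fn_bt_half h hxy]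

theorem fam_hasE [CompactSpace M] (h : UniqSeg M ρ) {w : LM M} {y x : M} (hxy : dist y x < ρ)
    (hw : fn w 0 = y) {b b' : ℝ} (hwb : w ∈ XE M b) (hb : 2 * (b ^ 2 + (2 * ρ) ^ 2) ≤ b' ^ 2) :
    fam w y x ∈ XE M b' := by
  refine rot_mem ?_ _
  have h1 := hasE_cc half_mem (by rw [hw, fn_bt_zero h hxy]) hwb (bt_mem h hxy)
  refine HasE.mono h1 ?_
  refine le_trans (le_of_eq ?_) hb
  ring

theorem hol_fam [CompactSpace M] (HS : Hol M) (h : UniqSeg M ρ) {w : LM M} {y x : M}
    (hxy : dist y x < ρ) (hw : fn w 0 = y) (hwb : FinE w) :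
    HS.hol (fam w y x) = HS.hol w := by
  have hcomp : fn w 0 = fn (bt y x) 0 := by rw [hw, fn_bt_zero h hxy]
  rw [fam, HS.hol_rot, HS.hol_cc half_mem hcomp hwb (finE_of_mem (bt_mem h hxy)),
    hol_bt HS h hxy, mul_one]

theorem cc_cst_cst {c : ℝ} (hc : 0 < c ∧ c < 1) (x : M) : cc c (cst x) (cst x) = cst x := by
  refine dist_le_zero.1 (dist_le_of_Ico le_rfl fun t ht => ?_)
  rcases le_total t c with h1 | h1
  · rw [fn_cc_left hc rfl ht.1 h1]
    simp
  · rw [fn_cc_right hc rfl h1 ht.2.le]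
    simp

theorem rot_cst (a : ℝ) (x : M) : rot a (cst x) = cst x := ext_fn fun t => by simp

theorem fam_self (x : M) : fam (cst x) x x = cst x := by
  rw [fam, bt_self, cc_cst_cst half_mem, rot_cst]

/-- Continuity of the concatenation. -/
theorem continuousOn_cc {T : Type*} [TopologicalSpace T] {S : Set T} {c : ℝ}
    (hc : 0 < c ∧ c < 1) {w g : T → LM M} (hw : ContinuousOn w S) (hg : ContinuousOn g S)
    (hwg : ∀ a ∈ S, fn (w a) 0 = fn (g a) 0) : ContinuousOn (fun a => cc c (w a) (g a)) S := by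
  intro a ha
  rw [ContinuousWithinAt, tendsto_iff_dist_tendsto_zero]
  have h1 := tendsto_iff_dist_tendsto_zero.1 (hw a ha)
  have h2 := tendsto_iff_dist_tendsto_zero.1 (hg a ha)
  have h3 := h1.max h2
  rw [max_self] at h3
  refine squeeze_zero' (Eventually.of_forall fun _ => dist_nonneg) ?_ h3
  filter_upwards [self_mem_nhdsWithin] with a' ha'
  exact dist_cc_le hc (hwg a' ha') (hwg a ha)

theorem continuousOn_fam [CompactSpace M] (h : UniqSeg M ρ) {T : Type*} [TopologicalSpace T]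
    {S : Set T} {w : T → LM M} {y x : T → M} (hw : ContinuousOn w S) (hy : ContinuousOn y S)
    (hx : ContinuousOn x S) (hwy : ∀ a ∈ S, fn (w a) 0 = y a) (hyx : ∀ a ∈ S, dist (y a) (x a) < ρ) :
    ContinuousOn (fun a => fam (w a) (y a) (x a)) S := by
  refine (isometry_rot (3 / 4)).continuous.comp_continuousOn ?_
  refine continuousOn_cc half_mem hw ((continuousOn_bt h).comp (hy.prodMk hx) hyx) fun a ha => ?_
  rw [hwy a ha, fn_bt_zero h (hyx a ha)]

end Vale.Agent.P216.H826
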