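import Vale.Agent.P216.AS.Htpy

/-!
# Vanishing of restriction maps: a sign argument and a glueing argument
-/

namespace Vale.Agent.P216.H826

open Set Vale.Agent.P216.AS

variable {E : Type} [PseudoMetricSpace E] {k : Type} [Field k] {I : Type} {a : I → E → E}
  {χ : I → k}

/-! ### Change of world -/

/-- All restriction maps `X → Y` vanish, on the level of cochains of the whole space. -/
def ResZero (a : I → E → E) (χ : I → k) (X Y : Set E) : Prop :=
  ∀ n, Zc (Cc a χ univ) (Zr a χ univ X) n ≤ Bc (Cc a χ univ) (Zr a χ univ Y) n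

theorem ResZero.mono {X Y X' Y' : Set E} (h : ResZero a χ X Y) (hX : X ⊆ X') (hY : Y' ⊆ Y) :
    ResZero a χ X' Y' := fun n =>
  (Zc_mono le_rfl (Zr_anti le_rfl hX) n).trans ((h n).trans (Bc_mono le_rfl (Zr_anti le_rfl hY) n))

theorem resZero_empty {X : Set E} : ResZero a χ X ∅ := fun n f hf => by
  rw [Zr_empty]
  exact T_le_Bc _ _ _ hf.1

theorem resZero_of_res {X Y : Set E} (hYX : Y ⊆ X) (hY : Inv a Y)
    (h : ∀ n (x : Ha a χ X n), res hYX n x = 0) : ResZero a χ X Y := by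
  intro n f hf
  have h1 : H.mk f (Zc_mono (Cc_anti (subset_univ X)) (Zr_anti (subset_univ X) le_rfl) n hf) ∈
      (⊤ : Set (Ha a χ X n)) := trivial
  have h2 := h n (H.mk f (Zc_mono (Cc_anti (subset_univ X)) (Zr_anti (subset_univ X) le_rfl) n hf))
  have hf' : f ∈ Zc (Cc a χ univ) (Zr a χ univ Y) n := Zc_mono le_rfl (Zr_anti le_rfl hYX) n hf
  have h3 := (world_bijective' (χ := χ) (subset_univ Y) le_rfl hY n).1
  have h4 : (H.mk f hf' : H (Cc a χ univ) (Zr a χ univ Y) n) = 0 := by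
    apply h3
    rw [map_zero]
    exact h2
  exact H.mk_eq_zero.1 h4

theorem ResZero.res {X Y : Set E} (hYX : Y ⊆ X) (hX : Inv a X) (h : ResZero a χ X Y) (n : ℕ)
    (x : Ha a χ X n) : AS.res hYX n x = 0 := by
  obtain ⟨x', rfl⟩ := (world_bijective' (χ := χ) (subset_univ X) le_rfl hX n).2 x
  obtain ⟨f, hf, rfl⟩ := H.exists_mk x'
  exact H.mk_eq_zero.2 (Bc_mono (Cc_anti (subset_univ Y)) (Zr_anti (subset_univ Y) le_rfl) n
    (h n hf))

/-! ### The sign argument -/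

section Sign

variable {τ : E → E} {X Y : Set E} {n : ℕ}

/-- Composition with the involution changes the sign. -/
theorem pull_neg {f f' : E → E} (hf : IsMap (fun _ : Unit => τ) (fun _ : Unit => τ) Y X f)
    (hf' : IsMap (fun _ : Unit => τ) (fun _ : Unit => τ) Y X f')
    (he : ∀ x ∈ Y, f' x = τ (f x)) (x : Ha (fun _ : Unit => τ) (fun _ : Unit => (-1 : k)) X n) :
    pull _ hf' n x = -pull _ hf n x := by
  obtain ⟨c, hc, rfl⟩ := H.exists_mk x
  rw [pull_mk, pull_mk, ← H.mk_neg, H.mk_eq_mk]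
  refine T_le_Bc _ _ _ ⟨?_, 1, one_pos, fun x hx => ?_⟩
  · exact (hf'.pb_eqv hc.1).sub ((hf.pb_eqv hc.1).neg)
  · change c (f' ∘ x) - -c (f ∘ x) = 0
    have h1 : f' ∘ x = τ ∘ (f ∘ x) := funext fun i => he _ (hx.1 i)
    have h2 : c (τ ∘ (f ∘ x)) = -1 * c (f ∘ x) := hc.1 () (f ∘ x) fun i => hf.mapsX (hx.1 i)
    rw [h1, h2]
    ring

theorem res_eq_zero_of_htpy (h2 : (2 : k) ≠ 0) (hYX : Y ⊆ X) {G₁ G₂ G₃ : ℝ → E → E}
    (h₁ : IsHtpy (fun _ : Unit => τ) (fun _ : Unit => τ) Y X G₁)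
    (h₂ : IsHtpy (fun _ : Unit => τ) (fun _ : Unit => τ) Y X G₂)
    (h₃ : IsHtpy (fun _ : Unit => τ) (fun _ : Unit => τ) Y X G₃)
    (e0 : ∀ x ∈ Y, G₁ 0 x = x) (e1 : ∀ x ∈ Y, G₁ 1 x = G₂ 0 x) (e2 : ∀ x ∈ Y, G₂ 1 x = G₃ 0 x)
    (e3 : ∀ x ∈ Y, G₃ 1 x = τ (G₃ 0 x)) (x : Ha (fun _ : Unit => τ) (fun _ : Unit => (-1 : k)) X n) :
    res hYX n x = 0 := by
  have k1 : pull (fun _ : Unit => (-1 : k)) h₁.zero n = res hYX n := pull_eq_res hYX h₁.zero e0
  have k2 := pull_homotopy (χ := fun _ : Unit => (-1 : k)) h₁ n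
  have k3 := pull_congr (χ := fun _ : Unit => (-1 : k)) (n := n) h₁.one h₂.zero e1
  have k4 := pull_homotopy (χ := fun _ : Unit => (-1 : k)) h₂ n
  have k5 := pull_congr (χ := fun _ : Unit => (-1 : k)) (n := n) h₂.one h₃.zero e2
  have k6 := pull_homotopy (χ := fun _ : Unit => (-1 : k)) h₃ n
  have k7 := pull_neg (n := n) h₃.zero h₃.one e3 x
  have k8 : pull (fun _ : Unit => (-1 : k)) h₃.zero n x = 0 := by
    rw [k6] at k7
    have : (2 : k) • pull (fun _ : Unit => (-1 : k)) h₃.zero n x = 0 := by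
      rw [two_smul]
      nth_rewrite 1 [k7]
      exact neg_add_cancel _
    exact (smul_eq_zero.1 this).resolve_left h2
  rw [← k1, ← k2, k3, ← k4, k5, k8]

end Sign

/-! ### The glueing argument -/

/-- If the restrictions `U'' → A''`, `U'' → B''` and `A'' ∩ B'' → A' ∩ B'` vanish and `A'`, `B'`
contain the points near `A`, `B`, then the restriction `U'' → A ∪ B` vanishes. -/
theorem ResZero.glue {U'' A'' B'' A' B' A B : Set E} (h1 : ResZero a χ U'' A'')
    (h2 : ResZero a χ U'' B'') (h3 : ResZero a χ (A'' ∩ B'') (A' ∩ B')) (hA'' : A' ⊆ A'')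
    (hB'' : B' ⊆ B'') (hA : Inv a A) {δ : ℝ} (hδ : 0 < δ)
    (cA : ∀ x ∈ A, ∀ y ∈ A ∪ B, dist x y < δ → y ∈ A')
    (cB : ∀ x ∈ B, ∀ y ∈ A ∪ B, dist x y < δ → y ∈ B') : ResZero a χ U'' (A ∪ B) := by
  classical
  intro n f hf
  cases n with
  | zero =>
    have e1 := mem_Bc_zero.1 (h1 0 hf)
    have e2 := mem_Bc_zero.1 (h2 0 hf)
    refine mem_Bc_zero.2 ⟨hf.1, ?_⟩
    obtain ⟨-, ε₁, hε₁, e1⟩ := e1
    obtain ⟨-, ε₂, hε₂, e2⟩ := e2
    refine ⟨min δ (min ε₁ ε₂), lt_min hδ (lt_min hε₁ hε₂), fun x hx => ?_⟩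
    rcases hx.1 0 with h0 | h0
    · exact e1 x ⟨fun i => hA'' (cA _ h0 _ (hx.1 i) ((hx.2 0 i).trans_le (min_le_left _ _))),
        fun i j => (hx.2 i j).trans_le ((min_le_right _ _).trans (min_le_left _ _))⟩
    · exact e2 x ⟨fun i => hB'' (cB _ h0 _ (hx.1 i) ((hx.2 0 i).trans_le (min_le_left _ _))),
        fun i j => (hx.2 i j).trans_le ((min_le_right _ _).trans (min_le_right _ _))⟩
  | succ n =>
    obtain ⟨y1, hy1, e1⟩ := mem_Bc_succ.1 (h1 _ hf)
    obtain ⟨y2, hy2, e2⟩ := mem_Bc_succ.1 (h2 _ hf)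
    have e3 : y1 - y2 ∈ Zc (Cc a χ univ) (Zr a χ univ (A'' ∩ B'')) n := by
      refine ⟨Submodule.sub_mem _ hy1 hy2, ?_⟩
      change (ASK E k).d n (y1 - y2) ∈ Zr a χ univ (A'' ∩ B'') (n + 1)
      have : (ASK E k).d n (y1 - y2) = (f - (ASK E k).d n y2) - (f - (ASK E k).d n y1) := by
        rw [map_sub]; abel
      rw [this]
      exact Submodule.sub_mem _ (Zr_anti le_rfl inter_subset_right _ e2)
        (Zr_anti le_rfl inter_subset_left _ e1)
    obtain ⟨t, ht, w, hw, htw⟩ := mem_Bc.1 (h3 _ e3)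
    have hwE : Eqv a χ univ w := im_le _ _ hw
    have hdw : ∀ x, P265.AS.d w x = 0 := fun x => congrFun (d_im hw) x
    obtain ⟨-, ε₁, hε₁, e1⟩ := e1
    obtain ⟨-, ε₂, hε₂, e2⟩ := e2
    obtain ⟨-, ε₃, hε₃, e3'⟩ := ht
    let h : (Fin (n + 1) → E) → k := fun x => if x 0 ∈ A then y1 x else y2 x + w x
    have hhE : Eqv a χ univ h := by
      intro i x hx
      have hy1' := hy1 i x hx
      have hy2' := hy2 i x hx
      have hw' := hwE i x hx
      change (if a i (x 0) ∈ A then y1 (a i ∘ x) else y2 (a i ∘ x) + w (a i ∘ x)) = _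
      by_cases h0 : x 0 ∈ A
      · rw [if_pos ((hA i _).2 h0), hy1']
        change _ = χ i * (if x 0 ∈ A then y1 x else y2 x + w x)
        rw [if_pos h0]
      · rw [if_neg (fun h' => h0 ((hA i _).1 h')), hy2', hw']
        change _ = χ i * (if x 0 ∈ A then y1 x else y2 x + w x)
        rw [if_neg h0, mul_add]
    refine mem_Bc_succ.2 ⟨h, hhE, hf.1.sub hhE.d, min δ (min ε₁ (min ε₂ ε₃)), by positivity,
      fun x hx => ?_⟩
    have l0 : min δ (min ε₁ (min ε₂ ε₃)) ≤ δ := min_le_left _ _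
    have l1 : min δ (min ε₁ (min ε₂ ε₃)) ≤ ε₁ := (min_le_right _ _).trans (min_le_left _ _)
    have l2 : min δ (min ε₁ (min ε₂ ε₃)) ≤ ε₂ :=
      (min_le_right _ _).trans ((min_le_right _ _).trans (min_le_left _ _))
    have l3 : min δ (min ε₁ (min ε₂ ε₃)) ≤ ε₃ :=
      (min_le_right _ _).trans ((min_le_right _ _).trans (min_le_right _ _))
    have key : ∀ y : Fin (n + 1) → E, (∀ i, y i ∈ A') → (∀ i, y i ∈ B') →
        (∀ i j, dist (y i) (y j) < min δ (min ε₁ (min ε₂ ε₃))) → y1 y = y2 y + w y := by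
      intro y ha hb hd
      have h4 : t y = 0 := e3' y ⟨fun i => ⟨ha i, hb i⟩, fun i j => (hd i j).trans_le l3⟩
      have h5 : t y + w y = y1 y - y2 y := congrFun htw y
      rw [h4, zero_add] at h5
      rw [h5]; ring
    change f x - P265.AS.d h x = 0
    have hxA : ∀ i, x i ∈ A → ∀ j, x j ∈ A' := fun i hi j =>
      cA _ hi _ (hx.1 j) ((hx.2 i j).trans_le l0)
    have hxB : ∀ i, x i ∈ B → ∀ j, x j ∈ B' := fun i hi j =>
      cB _ hi _ (hx.1 j) ((hx.2 i j).trans_le l0)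
    by_cases h0 : x 0 ∈ A
    · have hd : P265.AS.d h x = P265.AS.d y1 x := by
        refine P265.AS.d_congr fun y hy => ?_
        change (if y 0 ∈ A then y1 y else y2 y + w y) = y1 y
        by_cases h6 : y 0 ∈ A
        · rw [if_pos h6]
        · rw [if_neg h6]
          obtain ⟨j, hj⟩ := hy 0
          have h7 : x j ∈ B := (hx.1 j).resolve_left (hj ▸ h6)
          exact (key y (P265.AS.sub_mem (hxA 0 h0) hy) (P265.AS.sub_mem (hxB j h7) hy)
            (hx.sub hy).2).symm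
      rw [hd]
      exact e1 x ⟨fun i => hA'' (hxA 0 h0 i), fun i j => (hx.2 i j).trans_le l1⟩
    · have h0' : x 0 ∈ B := (hx.1 0).resolve_left h0
      have hd : P265.AS.d h x = P265.AS.d y2 x := by
        have h8 : P265.AS.d h x = P265.AS.d (y2 + w) x := by
          refine P265.AS.d_congr fun y hy => ?_
          change (if y 0 ∈ A then y1 y else y2 y + w y) = y2 y + w y
          by_cases h6 : y 0 ∈ A
          · rw [if_pos h6]
            obtain ⟨j, hj⟩ := hy 0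
            exact key y (P265.AS.sub_mem (hxA j (hj ▸ h6)) hy) (P265.AS.sub_mem (hxB 0 h0') hy)
              (hx.sub hy).2
          · rw [if_neg h6]
        rw [h8, P265.AS.d_add]
        change P265.AS.d y2 x + P265.AS.d w x = _
        rw [hdw, add_zero]
      rw [hd]
      exact e2 x ⟨fun i => hB'' (hxB 0 h0' i), fun i j => (hx.2 i j).trans_le l2⟩

end Vale.Agent.P216.H826
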