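import Vale.Agent.P216.H826.BarsGeo
import Vale.Agent.P216.H826.Glue
import Vale.Agent.P216.Hol.DC

/-!
# Bounded bars (D5)

If a square root of the holonomy changes sign along some loop of loops at every base point, then
the restriction maps of the twisted cohomology from level `s + B` to level `s` vanish.
-/

namespace Vale.Agent.P216.H826

open Set Filter Topology Metric
open Vale.Agent.P216.L250 Vale.Agent.P216.LS Vale.Agent.P216.H288 Vale.Agent.P216.AS

variable {M : Type} [MetricSpace M] {ρ : ℝ}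

/-- The part of the double cover over the loops with base point in `U`. -/
def XtU (H : Hol M) (U : Set M) (s : ℝ) : Set (LM M × ℂ) := {q | q ∈ Xt H s ∧ fn q.1 0 ∈ U}

theorem XtU_univ (H : Hol M) (s : ℝ) : XtU H univ s = Xt H s := by
  ext q; exact and_iff_left trivial

theorem XtU_mono (H : Hol M) {U V : Set M} {s t : ℝ} (hs : 0 ≤ s) (hst : s ≤ t) (h : U ⊆ V) :
    XtU H U s ⊆ XtU H V t := fun _ hq => ⟨Xt_mono hs hst hq.1, h hq.2⟩

theorem continuous_base : Continuous fun q : LM M × ℂ => fn q.1 0 :=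
  continuous_fn_apply.comp (f := fun q : LM M × ℂ => (q.1, (0 : ℝ)))
    (continuous_fst.prodMk continuous_const)

theorem dist_base_le (q q' : LM M × ℂ) : dist (fn q.1 0) (fn q'.1 0) ≤ dist q q' :=
  (ContinuousMap.dist_apply_le_dist _).trans (le_max_left _ _)

theorem isCompact_XtU [CompactSpace M] (H : Hol M) {U : Set M} (hU : IsClosed U) {s : ℝ}
    (hs : 0 ≤ s) : IsCompact (XtU H U s) :=
  (isCompact_Xt hs).inter_right (hU.preimage continuous_base)

theorem inv_XtU (H : Hol M) (U : Set M) (s : ℝ) :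
    Inv (fun _ : Unit => (deckC : LM M × ℂ → LM M × ℂ)) (XtU H U s) :=
  fun _ _ => and_congr deckC_mem_iff Iff.rfl

/-- Short notation for the vanishing of restriction maps with twisted coefficients. -/
abbrev RZ (k : Type) [Field k] (X Y : Set (LM M × ℂ)) : Prop :=
  ResZero (fun _ : Unit => (deckC : LM M × ℂ → LM M × ℂ)) (fun _ : Unit => (-1 : k)) X Y

/-- One small ball of base points. -/
theorem rz_ball [CompactSpace M] {H : Hol M} (h : UniqSeg M ρ) {x₀ : M} {r : ℝ} (hr : r < ρ)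
    {b₀ b : ℝ} (hb : 0 < b) (hbρ : 2 * (b₀ ^ 2 + (2 * ρ) ^ 2) ≤ b ^ 2)
    {w : ℝ → LM M} {μ : ℝ → ℂ} (hw : IsSweep H x₀ b₀ w μ) {s : ℝ} (hs : 0 < s)
    {U : Set M} (hUc : IsClosed U) (hU : U ⊆ closedBall x₀ r) (k : Type) [Field k]
    (h2 : (2 : k) ≠ 0) : RZ k (XtU H U (s + b)) (XtU H U s) := by
  have hYX : XtU H U s ⊆ XtU H U (s + b) := XtU_mono H hs.le (by linarith) le_rfl
  refine resZero_of_res hYX (inv_XtU H U s) fun n x => ?_
  obtain ⟨G₁, G₂, G₃, i1, i2, i3, e0, e1, e2, e3⟩ := exists_homotopies h hr hb hbρ hw hs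
  have hsub : XtU H U s ⊆ Dom H x₀ r s := fun q hq => ⟨hq.1, hU hq.2⟩
  have key : ∀ {G : ℝ → LM M × ℂ → LM M × ℂ}, IsH H x₀ r s (s + b) G →
      IsHtpy (fun _ : Unit => deckC) (fun _ : Unit => deckC) (XtU H U s) (XtU H U (s + b)) G := by
    intro G hG
    refine IsHtpy.of_continuousOn (isCompact_XtU H hUc hs.le)
      (hG.cont.mono (prod_mono le_rfl hsub)) (fun τ hτ q hq => ?_) fun τ _ _ q _ => hG.deck τ q
    exact ⟨hG.mem τ hτ q (hsub hq), by rw [hG.base τ hτ q (hsub hq)]; exact hq.2⟩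
  exact res_eq_zero_of_htpy h2 hYX (key i1) (key i2) (key i3) (fun q _ => e0 q) (fun q _ => e1 q)
    (fun q _ => e2 q) (fun q _ => e3 q) x

/-- A finite union of closed balls. -/
def NB (t : Finset M) (r : ℝ) : Set M := {x | ∃ c ∈ t, dist x c ≤ r}

theorem isClosed_NB (t : Finset M) (r : ℝ) : IsClosed (NB t r) := by
  have : NB t r = ⋃ c ∈ t, closedBall c r := by
    ext x; simp [NB]
  rw [this]
  exact t.finite_toSet.isClosed_biUnion fun c _ => isClosed_closedBall

/-- Induction over the balls of a finite cover. -/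
theorem rz_cover {H : Hol M} {R b : ℝ} (hb : 0 < b) (k : Type) [Field k] (t : Finset M) :
    (∀ x₀ ∈ t, ∀ s, 0 < s → ∀ U : Set M, IsClosed U → U ⊆ closedBall x₀ R →
      RZ k (XtU H U (s + b)) (XtU H U s)) →
    ∀ r < R, ∀ U : Set M, IsClosed U → U ⊆ NB t r → ∀ s, 0 < s →
      RZ k (XtU H U (s + (t.card + 1) * b)) (XtU H U s) := by
  classical
  induction t using Finset.induction_on with
  | empty =>
    intro _ r _ U _ hU s _
    have : XtU H U s = ∅ := by
      rw [eq_empty_iff_forall_notMem]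
      intro q hq
      obtain ⟨c, hc, -⟩ := hU hq.2
      exact absurd hc (Finset.notMem_empty c)
    rw [this]
    exact resZero_empty
  | insert c t hct ih =>
    intro hball' r hr U hU hUt s hs
    have hball := hball' c (Finset.mem_insert_self c t)
    replace ih := ih fun x₀ hx₀ => hball' x₀ (Finset.mem_insert_of_mem hx₀)
    obtain ⟨r', hrr', hr'⟩ := exists_between hr
    set N : ℝ := (t.card : ℝ) with hN
    have hN0 : 0 ≤ N := Nat.cast_nonneg _
    have hcard : ((insert c t).card : ℝ) = N + 1 := by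
      rw [Finset.card_insert_of_notMem hct]; push_cast; rfl
    rw [hcard]
    have hNb : 0 ≤ N * b := mul_nonneg hN0 hb.le
    have c1 : IsClosed (U ∩ closedBall c r') := hU.inter isClosed_closedBall
    have c2 : IsClosed (U ∩ NB t r') := hU.inter (isClosed_NB t r')
    -- the two pieces
    have f1 : RZ k (XtU H U (s + (N + 1 + 1) * b)) (XtU H (U ∩ closedBall c r') (s + b)) := by
      refine (hball (s + b) (by linarith) _ c1
        (inter_subset_right.trans (closedBall_subset_closedBall hr'.le))).mono ?_ le_rfl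
      exact XtU_mono H (by linarith) (by nlinarith) inter_subset_left
    have f2 : RZ k (XtU H U (s + (N + 1 + 1) * b)) (XtU H (U ∩ NB t r') (s + b)) := by
      refine (ih r' hr' _ c2 inter_subset_right (s + b) (by linarith)).mono ?_ le_rfl
      exact XtU_mono H (by nlinarith) (by nlinarith) inter_subset_left
    have hA'' : XtU H (U ∩ closedBall c r') s ⊆ XtU H (U ∩ closedBall c r') (s + b) :=
      XtU_mono H hs.le (by linarith) le_rfl
    have hB'' : XtU H (U ∩ NB t r') s ⊆ XtU H (U ∩ NB t r') (s + b) :=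
      XtU_mono H hs.le (by linarith) le_rfl
    have hi : ∀ u, XtU H (U ∩ closedBall c r') u ∩ XtU H (U ∩ NB t r') u =
        XtU H ((U ∩ closedBall c r') ∩ (U ∩ NB t r')) u := fun u => by
      ext q
      exact ⟨fun hq => ⟨hq.1.1, hq.1.2, hq.2.2⟩, fun hq => ⟨⟨hq.1, hq.2.1⟩, hq.1, hq.2.2⟩⟩
    have f3 : RZ k (XtU H (U ∩ closedBall c r') (s + b) ∩ XtU H (U ∩ NB t r') (s + b))
        (XtU H (U ∩ closedBall c r') s ∩ XtU H (U ∩ NB t r') s) := by
      rw [hi, hi]
      exact hball s hs _ (c1.inter c2)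
        (inter_subset_left.trans (inter_subset_right.trans (closedBall_subset_closedBall hr'.le)))
    have hU' : U = (U ∩ closedBall c r) ∪ (U ∩ NB t r) := by
      rw [← inter_union_distrib_left, eq_comm, inter_eq_left]
      intro x hx
      obtain ⟨c', hc', hd⟩ := hUt hx
      rcases Finset.mem_insert.1 hc' with rfl | hc'
      · exact Or.inl hd
      · exact Or.inr ⟨c', hc', hd⟩
    have hsplit : XtU H U s = XtU H (U ∩ closedBall c r) s ∪ XtU H (U ∩ NB t r) s := by
      ext q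
      constructor
      · intro hq
        have := hq.2
        rw [hU'] at this
        exact this.imp (fun h => ⟨hq.1, h⟩) fun h => ⟨hq.1, h⟩
      · rintro (hq | hq)
        · exact ⟨hq.1, hq.2.1⟩
        · exact ⟨hq.1, hq.2.1⟩
    rw [hsplit]
    refine f1.glue f2 f3 hA'' hB'' (inv_XtU H _ s) (sub_pos.2 hrr') ?_ ?_
    · intro q hq q' hq' hqq'
      rw [← hsplit] at hq'
      refine ⟨hq'.1, hq'.2, ?_⟩
      rw [mem_closedBall]
      have h1 : dist (fn q.1 0) c ≤ r := hq.2.2
      have h3 := dist_base_le q q'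
      have h4 := dist_triangle_left (fn q'.1 0) c (fn q.1 0)
      linarith
    · intro q hq q' hq' hqq'
      rw [← hsplit] at hq'
      refine ⟨hq'.1, hq'.2, ?_⟩
      obtain ⟨c', hc', hd⟩ := hq.2.2
      refine ⟨c', hc', ?_⟩
      have h3 := dist_base_le q q'
      have h4 := dist_triangle_left (fn q'.1 0) c' (fn q.1 0)
      linarith

/-- **Bounded bars.** -/
theorem bars [CompactSpace M] {H : Hol M} (hρ : 0 < ρ) (h : UniqSeg M ρ)
    (hsw : ∀ x₀ : M, ∃ b w μ, IsSweep H x₀ b w μ) :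
    ∃ B : ℝ, 0 < B ∧ ∀ (k : Type) [Field k], (2 : k) ≠ 0 → ∀ s : ℝ, 0 < s → ∀ n : ℕ,
      ∀ (hs : Xt H s ⊆ Xt H (s + B))
        (x : Ha (fun _ : Unit => (deckC : LM M × ℂ → LM M × ℂ)) (fun _ : Unit => (-1 : k))
          (Xt H (s + B)) n), res hs n x = 0 := by
  classical
  choose b₀ w μ hw using hsw
  obtain ⟨t, ht⟩ : ∃ t : Finset M, univ ⊆ NB t (ρ / 4) := by
    obtain ⟨t, -, htf, ht⟩ := finite_cover_balls_of_compact (isCompact_univ (X := M))
      (show 0 < ρ / 4 by linarith)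
    refine ⟨htf.toFinset, fun x _ => ?_⟩
    obtain ⟨c, hc, hx⟩ := mem_iUnion₂.1 (ht (mem_univ x))
    exact ⟨c, htf.mem_toFinset.2 hc, (mem_ball.1 hx).le⟩
  set b₁ : ℝ := ∑ c ∈ t, |b₀ c| with hb₁
  have hb₁0 : 0 ≤ b₁ := Finset.sum_nonneg fun c _ => abs_nonneg _
  have hle : ∀ c ∈ t, |b₀ c| ≤ b₁ := fun c hc =>
    Finset.single_le_sum (f := fun c => |b₀ c|) (fun c _ => abs_nonneg _) hc
  set b : ℝ := 2 * (b₁ + 2 * ρ + 1) with hbdef
  have hb : 0 < b := by positivity
  have hN : (0 : ℝ) < (t.card : ℝ) + 1 := by positivity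
  refine ⟨(t.card + 1) * b, by positivity, fun k _ h2 s hs n hsub x => ?_⟩
  have key : RZ k (XtU H univ (s + (t.card + 1) * b)) (XtU H univ s) := by
    refine rz_cover hb k t (fun x₀ hx₀ s hs U hUc hU => ?_) (ρ / 4) (show ρ / 4 < ρ / 2 by linarith)
      univ isClosed_univ ht s hs
    refine rz_ball h (show ρ / 2 < ρ by linarith) hb (b₀ := b₀ x₀) ?_ (hw x₀) hs hUc hU k h2
    have h3 : b₀ x₀ ^ 2 ≤ b₁ ^ 2 := sq_le_sq.2 ((hle x₀ hx₀).trans (le_abs_self _))
    rw [hbdef]
    nlinarith [mul_nonneg hb₁0 hρ.le]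
  rw [XtU_univ, XtU_univ] at key
  have hinv : Inv (fun _ : Unit => (deckC : LM M × ℂ → LM M × ℂ)) (Xt H (s + (t.card + 1) * b)) :=
    fun _ _ => deckC_mem_iff
  exact key.res hsub hinv n x

end Vale.Agent.P216.H826
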