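import Vale.Agent.P216.H826.Back
import Vale.Agent.P216.LS.Maps

/-!
# Bounded bars: the homotopies over a small ball of base points
-/

namespace Vale.Agent.P216.H826

open Set Filter Topology
open Vale.Agent.P216.L250 Vale.Agent.P216.LS Vale.Agent.P216.H288

variable {M : Type*} [MetricSpace M] {ρ : ℝ}

/-- A loop of loops based at `x₀`, along which the square root of the holonomy changes sign. -/
structure IsSweep (H : Hol M) (x₀ : M) (b : ℝ) (w : ℝ → LM M) (μ : ℝ → ℂ) : Prop where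
  cont_w : ContinuousOn w (Icc 0 1)
  base : ∀ τ ∈ Icc (0 : ℝ) 1, fn (w τ) 0 = x₀
  mem : ∀ τ ∈ Icc (0 : ℝ) 1, w τ ∈ XE M b
  w_zero : w 0 = cst x₀
  w_one : w 1 = cst x₀
  cont_μ : ContinuousOn μ (Icc 0 1)
  sq : ∀ τ ∈ Icc (0 : ℝ) 1, μ τ ^ 2 = H.hol (w τ)
  μ_zero : μ 0 = 1
  μ_one : μ 1 = -1

theorem IsSweep.mono {H : Hol M} {x₀ : M} {b b' : ℝ} {w : ℝ → LM M} {μ : ℝ → ℂ}
    (h : IsSweep H x₀ b w μ) (hb : 0 ≤ b) (hbb' : b ≤ b') : IsSweep H x₀ b' w μ :=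
  { h with mem := fun τ hτ => XE_mono hb hbb' (h.mem τ hτ) }

/-- The loops of the double cover at level `s`, with base point at distance `≤ r` from `x₀`. -/
def Dom (H : Hol M) (x₀ : M) (r s : ℝ) : Set (LM M × ℂ) :=
  {q | (q.1 ∈ XE M s ∧ q.2 ^ 2 = H.hol q.1) ∧ dist (fn q.1 0) x₀ ≤ r}

/-- Lifted homotopies which keep the base point and go from level `s` to level `s'`. -/
structure IsH (H : Hol M) (x₀ : M) (r s s' : ℝ) (F : ℝ → LM M × ℂ → LM M × ℂ) : Prop where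
  cont : ContinuousOn (fun p : ℝ × (LM M × ℂ) => F p.1 p.2) (Icc 0 1 ×ˢ Dom H x₀ r s)
  mem : ∀ τ ∈ Icc (0 : ℝ) 1, ∀ q ∈ Dom H x₀ r s,
    (F τ q).1 ∈ XE M s' ∧ (F τ q).2 ^ 2 = H.hol (F τ q).1
  base : ∀ τ ∈ Icc (0 : ℝ) 1, ∀ q ∈ Dom H x₀ r s, fn (F τ q).1 0 = fn q.1 0
  deck : ∀ τ q, F τ (q.1, -q.2) = ((F τ q).1, -(F τ q).2)

/-! ### First homotopy: waiting at the base point -/

/-- Projection to `[0, 1]`. -/
noncomputable def clamp (τ : ℝ) : ℝ := max 0 (min 1 τ)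

theorem clamp_of_mem {τ : ℝ} (h : τ ∈ Icc (0 : ℝ) 1) : clamp τ = τ := by
  rw [clamp, min_eq_right h.2, max_eq_right h.1]

theorem clamp_mem (τ : ℝ) : clamp τ ∈ Icc (0 : ℝ) 1 :=
  ⟨le_max_left _ _, max_le zero_le_one (min_le_left _ _)⟩

theorem continuous_clamp : Continuous clamp := by unfold clamp; fun_prop

theorem rep_path {c : ℝ} (hc : 0 < c ∧ c < 1) (τ : ℝ) :
    Rep (1 - c)⁻¹ fun t => (1 - clamp τ) * t + clamp τ * wait c t := by
  have h1 : 1 ≤ (1 - c)⁻¹ := (one_le_inv₀ (sub_pos.2 hc.2)).2 (by linarith [hc.1])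
  have := (Rep.id h1).combo (rep_wait hc.1 hc.2) (a := 1 - clamp τ) (b := clamp τ)
    (by linarith [(clamp_mem τ).2]) (clamp_mem τ).1 (by ring)
  exact this

/-- The first homotopy. -/
noncomputable def F1 {c : ℝ} (hc : 0 < c ∧ c < 1) (τ : ℝ) (q : LM M × ℂ) : LM M × ℂ :=
  (reparam (rep_path hc τ) q.1, q.2)

theorem isH_F1 (H : Hol M) (x₀ : M) (r : ℝ) {b s : ℝ} (hb : 0 < b) (hs : 0 < s) :
    IsH H x₀ r s (s + b) (F1 (cc_split hb hs)) where
  cont := by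
    refine ContinuousOn.prodMk ?_ (continuous_snd.comp continuous_snd).continuousOn
    refine continuousOn_of_pointwise (s := s + b) (by positivity) (fun p hp => ?_) fun t => ?_
    · exact reparam_mem _ hp.2.1.1 (wait_L hb hs)
    · refine Continuous.continuousOn ?_
      have h1 : Continuous fun p : ℝ × (LM M × ℂ) =>
          fn p.2.1 ((1 - clamp p.1) * t + clamp p.1 * wait (b / (s + b)) t) := by
        refine continuous_fn_apply.comp (f := fun p : ℝ × (LM M × ℂ) =>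
          (p.2.1, (1 - clamp p.1) * t + clamp p.1 * wait (b / (s + b)) t)) ?_
        have := continuous_clamp
        fun_prop
      exact h1
  mem τ _ q hq := by
    refine ⟨reparam_mem (rep_path (cc_split hb hs) τ) hq.1.1 (wait_L hb hs), ?_⟩
    change q.2 ^ 2 = H.hol (reparam (rep_path (cc_split hb hs) τ) q.1)
    rw [H.hol_reparam _ _ (finE_of_mem hq.1.1), hq.1.2]
  base τ _ q _ := by
    change fn q.1 ((1 - clamp τ) * 0 + clamp τ * wait (b / (s + b)) 0) = _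
    have h2 : wait (b / (s + b)) 0 = 0 := by
      have hc := cc_split hb hs
      have hc' : 0 < 1 - b / (s + b) := sub_pos.2 hc.2
      have h3 : max 0 ((0 - b / (s + b)) / (1 - b / (s + b))) = 0 :=
        max_eq_left (div_nonpos_of_nonpos_of_nonneg (by linarith [hc.1]) hc'.le)
      rw [wait, ext1_of_Icc (ψ := fun t => max 0 ((t - b / (s + b)) / (1 - b / (s + b)))) h3 ?_
        le_rfl zero_le_one]
      · exact h3
      · rw [div_self hc'.ne']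
        exact max_eq_right zero_le_one
    rw [h2, mul_zero, mul_zero, add_zero]
  deck τ q := rfl

theorem F1_zero {c : ℝ} (hc : 0 < c ∧ c < 1) (q : LM M × ℂ) : F1 hc 0 q = q := by
  refine Prod.ext (ext_fn fun t => ?_) rfl
  change fn q.1 ((1 - clamp 0) * t + clamp 0 * wait c t) = fn q.1 t
  rw [clamp_of_mem ⟨le_rfl, zero_le_one⟩]
  simp

theorem F1_one {c : ℝ} (hc : 0 < c ∧ c < 1) (q : LM M × ℂ) :
    F1 hc 1 q = (cc c (cst (fn q.1 0)) q.1, q.2) := by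
  refine Prod.ext (ext_fn fun t => ?_) rfl
  change fn q.1 ((1 - clamp 1) * t + clamp 1 * wait c t) = fn (cc c (cst (fn q.1 0)) q.1) t
  rw [cc_cst hc, fn_reparam, clamp_of_mem ⟨zero_le_one, le_rfl⟩]
  simp

/-! ### Second homotopy: growing the backtracking path -/

/-- The second homotopy. -/
noncomputable def F2 (c : ℝ) (x₀ : M) (τ : ℝ) (q : LM M × ℂ) : LM M × ℂ :=
  (cc c (fam (cst (seg (fn q.1 0) x₀ τ)) (seg (fn q.1 0) x₀ τ) (fn q.1 0)) q.1, q.2)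

theorem continuous_cst : Continuous (cst : M → LM M) := ContinuousMap.continuous_const'

theorem dist_seg_lt (h : UniqSeg M ρ) {x₀ x : M} (hx : dist x x₀ < ρ) {τ : ℝ}
    (hτ : τ ∈ Icc (0 : ℝ) 1) : dist (seg x x₀ τ) x < ρ := by
  rw [dist_comm, dist_left_seg h hx hτ]
  exact (mul_le_of_le_one_left dist_nonneg hτ.2).trans_lt hx

theorem isH_F2 [CompactSpace M] (H : Hol M) (h : UniqSeg M ρ) (x₀ : M) {r : ℝ} (hr : r < ρ)
    {b s : ℝ} (hb : 0 < b) (hs : 0 < s) (hbρ : 2 * (0 ^ 2 + (2 * ρ) ^ 2) ≤ b ^ 2) :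
    IsH H x₀ r s (s + b) (F2 (b / (s + b)) x₀) where
  cont := by
    have hx : Continuous fun p : ℝ × (LM M × ℂ) => fn p.2.1 0 :=
      (continuous_fn_left 0).comp (continuous_fst.comp continuous_snd)
    have hseg : ContinuousOn (fun p : ℝ × (LM M × ℂ) => seg (fn p.2.1 0) x₀ p.1)
        (Icc 0 1 ×ˢ Dom H x₀ r s) :=
      ContinuousOn.seg h hx.continuousOn continuousOn_const continuous_fst.continuousOn
        (fun p hp => hp.2.2.trans_lt hr) fun p hp => hp.1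
    refine ContinuousOn.prodMk ?_ (continuous_snd.comp continuous_snd).continuousOn
    refine continuousOn_cc (cc_split hb hs) ?_ (continuous_fst.comp continuous_snd).continuousOn ?_
    · exact continuousOn_fam h (continuous_cst.comp_continuousOn hseg) hseg hx.continuousOn
        (fun _ _ => rfl) fun p hp => dist_seg_lt h (hp.2.2.trans_lt hr) hp.1
    · exact fun p hp => fam_zero h (dist_seg_lt h (hp.2.2.trans_lt hr) hp.1) rfl
  mem τ hτ q hq := by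
    have hd := dist_seg_lt h (hq.2.trans_lt hr) hτ
    have h0 := fam_zero h hd (w := cst (seg (fn q.1 0) x₀ τ)) rfl
    have h1 := fam_hasE h hd rfl (cst_mem (seg (fn q.1 0) x₀ τ) 0) hbρ
    refine ⟨cc_mem hb hs h0 h1 hq.1.1, ?_⟩
    change q.2 ^ 2 = H.hol (cc _ (fam _ _ _) q.1)
    have h2 := hol_fam H h hd (w := cst (seg (fn q.1 0) x₀ τ)) rfl (finE_cst _)
    rw [H.hol_cc (cc_split hb hs) h0 (finE_of_mem h1) (finE_of_mem hq.1.1),
      h2, H.hol_cst, one_mul, hq.1.2]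
  base τ hτ q hq := by
    have hd := dist_seg_lt h (hq.2.trans_lt hr) hτ
    have h0 := fam_zero h hd (w := cst (seg (fn q.1 0) x₀ τ)) rfl
    exact fn_cc_zero (cc_split hb hs) h0
  deck τ q := rfl

theorem F2_zero (c : ℝ) (x₀ : M) (q : LM M × ℂ) :
    F2 c x₀ 0 q = (cc c (cst (fn q.1 0)) q.1, q.2) := by
  rw [F2, seg_zero, fam_self]

theorem F2_one (c : ℝ) (x₀ : M) (q : LM M × ℂ) :
    F2 c x₀ 1 q = (cc c (fam (cst x₀) x₀ (fn q.1 0)) q.1, q.2) := by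
  rw [F2, seg_one]

/-! ### Third homotopy: the sweep -/

/-- The third homotopy. -/
noncomputable def F3 (c : ℝ) (x₀ : M) (w : ℝ → LM M) (μ : ℝ → ℂ) (τ : ℝ) (q : LM M × ℂ) :
    LM M × ℂ :=
  (cc c (fam (w τ) x₀ (fn q.1 0)) q.1, q.2 * μ τ)

theorem isH_F3 [CompactSpace M] {H : Hol M} (h : UniqSeg M ρ) {x₀ : M} {r : ℝ} (hr : r < ρ)
    {b₀ b s : ℝ} (hb : 0 < b) (hs : 0 < s) (hbρ : 2 * (b₀ ^ 2 + (2 * ρ) ^ 2) ≤ b ^ 2)
    {w : ℝ → LM M} {μ : ℝ → ℂ} (hw : IsSweep H x₀ b₀ w μ) :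
    IsH H x₀ r s (s + b) (F3 (b / (s + b)) x₀ w μ) where
  cont := by
    have hx : Continuous fun p : ℝ × (LM M × ℂ) => fn p.2.1 0 :=
      (continuous_fn_left 0).comp (continuous_fst.comp continuous_snd)
    have hwc : ContinuousOn (fun p : ℝ × (LM M × ℂ) => w p.1) (Icc 0 1 ×ˢ Dom H x₀ r s) :=
      hw.cont_w.comp continuous_fst.continuousOn fun p hp => hp.1
    have hμc : ContinuousOn (fun p : ℝ × (LM M × ℂ) => μ p.1) (Icc 0 1 ×ˢ Dom H x₀ r s) :=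
      hw.cont_μ.comp continuous_fst.continuousOn fun p hp => hp.1
    have hd : ∀ p ∈ Icc (0 : ℝ) 1 ×ˢ Dom H x₀ r s, dist x₀ (fn p.2.1 0) < ρ := fun p hp => by
      rw [dist_comm]
      exact hp.2.2.trans_lt hr
    refine ContinuousOn.prodMk ?_
      ((continuous_snd.comp continuous_snd).continuousOn.mul hμc)
    refine continuousOn_cc (cc_split hb hs) ?_ (continuous_fst.comp continuous_snd).continuousOn ?_
    · exact continuousOn_fam h hwc continuousOn_const hx.continuousOn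
        (fun p hp => hw.base _ hp.1) hd
    · exact fun p hp => fam_zero h (hd p hp) (hw.base _ hp.1)
  mem τ hτ q hq := by
    have hd : dist x₀ (fn q.1 0) < ρ := by
      rw [dist_comm]
      exact hq.2.trans_lt hr
    have h0 := fam_zero h hd (hw.base τ hτ)
    have h1 := fam_hasE h hd (hw.base τ hτ) (hw.mem τ hτ) hbρ
    refine ⟨cc_mem hb hs h0 h1 hq.1.1, ?_⟩
    change (q.2 * μ τ) ^ 2 = H.hol (cc _ (fam _ _ _) q.1)
    rw [H.hol_cc (cc_split hb hs) h0 (finE_of_mem h1) (finE_of_mem hq.1.1),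
      hol_fam H h hd (hw.base τ hτ) (finE_of_mem (hw.mem τ hτ)), mul_pow, hw.sq τ hτ, hq.1.2,
      mul_comm]
  base τ hτ q hq := by
    have hd : dist x₀ (fn q.1 0) < ρ := by
      rw [dist_comm]
      exact hq.2.trans_lt hr
    exact fn_cc_zero (cc_split hb hs) (fam_zero h hd (hw.base τ hτ))
  deck τ q := by
    simp only [F3, neg_mul]

theorem F3_zero {H : Hol M} {x₀ : M} {b₀ : ℝ} {w : ℝ → LM M} {μ : ℝ → ℂ}
    (hw : IsSweep H x₀ b₀ w μ) (c : ℝ) (q : LM M × ℂ) :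
    F3 c x₀ w μ 0 q = (cc c (fam (cst x₀) x₀ (fn q.1 0)) q.1, q.2) := by
  rw [F3, hw.w_zero, hw.μ_zero, mul_one]

theorem F3_one {H : Hol M} {x₀ : M} {b₀ : ℝ} {w : ℝ → LM M} {μ : ℝ → ℂ}
    (hw : IsSweep H x₀ b₀ w μ) (c : ℝ) (q : LM M × ℂ) :
    F3 c x₀ w μ 1 q = (cc c (fam (cst x₀) x₀ (fn q.1 0)) q.1, -q.2) := by
  rw [F3, hw.w_one, hw.μ_one, mul_neg_one]

/-- **The geometric content of bounded bars.** -/
theorem exists_homotopies [CompactSpace M] {H : Hol M} (h : UniqSeg M ρ) {x₀ : M} {r : ℝ}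
    (hr : r < ρ) {b₀ b : ℝ} (hb : 0 < b) (hbρ : 2 * (b₀ ^ 2 + (2 * ρ) ^ 2) ≤ b ^ 2)
    {w : ℝ → LM M} {μ : ℝ → ℂ} (hw : IsSweep H x₀ b₀ w μ) {s : ℝ} (hs : 0 < s) :
    ∃ G₁ G₂ G₃ : ℝ → LM M × ℂ → LM M × ℂ, IsH H x₀ r s (s + b) G₁ ∧ IsH H x₀ r s (s + b) G₂ ∧
      IsH H x₀ r s (s + b) G₃ ∧ (∀ q, G₁ 0 q = q) ∧ (∀ q, G₁ 1 q = G₂ 0 q) ∧
      (∀ q, G₂ 1 q = G₃ 0 q) ∧ ∀ q, G₃ 1 q = ((G₃ 0 q).1, -(G₃ 0 q).2) := by
  refine ⟨F1 (cc_split hb hs), F2 (b / (s + b)) x₀, F3 (b / (s + b)) x₀ w μ,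
    isH_F1 H x₀ r hb hs, isH_F2 H h x₀ hr hb hs ?_, isH_F3 h hr hb hs hbρ hw,
    F1_zero _, fun q => ?_, fun q => ?_, fun q => ?_⟩
  · nlinarith [sq_nonneg b₀]
  · rw [F1_one, F2_zero]
  · rw [F2_one, F3_zero hw]
  · rw [F3_one hw, F3_zero hw]

end Vale.Agent.P216.H826
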